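import Vale.Agent.P207.H395.Tens2
import Vale.Agent.P207.H440.FrLC
import Vale.Agent.P207.H734.GaugeF
import Vale.Agent.P207.H832.StepFr

/-!
# P207, block TENS: the frame bundle; the linear gauge equation and the Newton step are solved
-/

open scoped Manifold ContDiff ENNReal Topology
open Bundle MeasureTheory Set Filter Topology

noncomputable section

set_option maxSynthPendingDepth 3
set_option linter.unusedSectionVars false

namespace Vale.Agent.P207.H395

open Vale.Agent.P255 (RMetric coefIn Gam Riem innerAt)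
open Vale.Agent.P207 Vale.Agent.P207.Q Vale.Agent.P207.H442

variable {n : ℕ} {M : Type} [TopologicalSpace M] [ChartedSpace (EV n) M]
  [IsManifold 𝓘(ℝ, EV n) ∞ M] {g : RMetric (EV n) M}
variable [NeZero n] [CompactSpace M] [T2Space M] [MeasurableSpace M] [BorelSpace M]
  (D : Kat.Dat g) [Nonempty (Fr g)]

/-- the hypotheses of the elliptic theory hold for the frame bundle -/
theorem tdata : TData D.S (frCalc g) where
  cpt := ⟨fun _ _ => rfl, fun _ _ _ => rfl⟩
  loc := H440.frN_loc (horFlows g) D.hP D.hφ D.hmp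
  cl := H440.frN_cl (horFlows g) D.hP D.hφ D.hmp

theorem I_eq (f : SmFr g) : D.I f = ∫ p, (f : C(Fr g, ℝ)) p ∂D.mP := rfl

theorem solv0_fr {c : ℝ} (hc : 0 < c) : H734.Solv0 (frCalc g) D.h c :=
  solv0 (tdata D) (I_eq D) (H734.isInt_I D) (H734.iPos_I D) hc

theorem solv1_fr {c₀ c : ℝ} (hE : H734.Ein (frCalc g) c₀) (hc : c₀ < c) :
    H734.Solv1 (frCalc g) D.h c :=
  solv1 (tdata D) (I_eq D) (H734.isInt_I D) (H734.iPos_I D) hE hc

/-- **(GAUGE)** for every closed locally symmetric metric of negative curvature -/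
theorem gaugeStmt [ConnectedSpace M] (hn : 2 ≤ n) (h : NegCurvature g) (hs : LocSymmetric g) :
    H832.GaugeStmt D := by
  obtain ⟨Cg, h0, hg⟩ := H734.exists_gauge_fr D hn h hs (fun c₀ hc => solv0_fr D hc)
    (fun c₀ hc hE => solv1_fr D hE (by linarith))
  refine ⟨fun s => Cg (s + 2), fun s => h0 _, fun k hk => ?_⟩
  obtain ⟨w, hw, hwn, hwe⟩ := hg k hk
  exact ⟨w, hw, hwe, fun s => hwn (s + 2) (by omega)⟩

/-- **(STEP)** for every closed locally symmetric metric of negative curvature -/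
theorem stepStmt [ConnectedSpace M] (hn : 2 ≤ n) (h : NegCurvature g) (hs : LocSymmetric g) :
    D.STEPStmt := H832.stepStmt_of_gauge D (gaugeStmt D hn h hs)

/-! ### the spectral spaces of the frame bundle -/

open Vale.Agent.P207.H379 (T1s T2s G1s G2s IsS1 IsS2 rotAct)

/-- functions on the base: `L = -cas` -/
def q0 : SSp (T0s (frCalc g)) := sp0 (tdata D)

/-- vector fields: `L = -cas` -/
def q1 : SSp (T1s (frCalc g)) := sp1 (tdata D)

/-- tensors of rank two: `L = -cas` -/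
def q2 : SSp (T2s (frCalc g)) := sp2 (tdata D)

theorem q0_L (f : T0s (frCalc g)) : ((q0 D).L f : SmFr g) = -(frCalc g).cas (f : SmFr g) :=
  sp0_L (tdata D) f

theorem q0_ip (f h : T0s (frCalc g)) : (q0 D).ip f h = D.I ((f : SmFr g) * (h : SmFr g)) :=
  sp0_ip (tdata D) (I_eq D) f h

theorem isS1_q1 : IsS1 (q1 D) D.I := isS1 (tdata D) (I_eq D)

theorem isS2_q2 : IsS2 (q2 D) D.I := isS2 (tdata D) (I_eq D)

theorem h_le_q0 (s : ℕ) (f : T0s (frCalc g)) : D.h s (f : SmFr g) ≤ (q0 D).nm s f :=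
  hN_le_sp0 (tdata D) s f

theorem q0_le_h (s : ℕ) (f : T0s (frCalc g)) : (q0 D).nm s f ≤ D.h s (f : SmFr g) :=
  sp0_nm_le (tdata D) s f

theorem h_le_q1 (s : ℕ) (w : T1s (frCalc g)) (i : Fin n) :
    D.h s ((w : Fin n → SmFr g) i) ≤ (q1 D).nm s w := hN_le_sp1 (tdata D) s w i

theorem q1_le_hV (s : ℕ) (w : T1s (frCalc g)) : (q1 D).nm s w ≤ D.hV s (w : Fin n → SmFr g) :=
  sp1_nm_le (tdata D) s w

theorem hV_le_q1 (s : ℕ) (w : T1s (frCalc g)) :
    D.hV s (w : Fin n → SmFr g) ≤ n * (q1 D).nm s w := by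
  calc D.hV s (w : Fin n → SmFr g) ≤ ∑ _i : Fin n, (q1 D).nm s w :=
        Finset.sum_le_sum fun i _ => h_le_q1 D s w i
    _ = _ := by simp

theorem h_le_q2 (s : ℕ) (k : T2s (frCalc g)) (i j : Fin n) :
    D.h s ((k : Fin n → Fin n → SmFr g) i j) ≤ (q2 D).nm s k := hN_le_sp2 (tdata D) s k i j

theorem q2_le_hT (s : ℕ) (k : T2s (frCalc g)) :
    (q2 D).nm s k ≤ D.hT s (k : Fin n → Fin n → SmFr g) := sp2_nm_le (tdata D) s k

theorem hT_le_q2 (s : ℕ) (k : T2s (frCalc g)) :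
    D.hT s (k : Fin n → Fin n → SmFr g) ≤ n ^ 2 * (q2 D).nm s k := by
  calc D.hT s (k : Fin n → Fin n → SmFr g) ≤ ∑ _i : Fin n, ∑ _j : Fin n, (q2 D).nm s k :=
        Finset.sum_le_sum fun i _ => Finset.sum_le_sum fun j _ => h_le_q2 D s k i j
    _ = _ := by simp; ring

theorem cas_q0_P (l : ℝ) (f : T0s (frCalc g)) :
    (frCalc g).cas ((q0 D).P l f : SmFr g) = -l • ((q0 D).P l f : SmFr g) :=
  cas_sp0_P (tdata D) l f

theorem cas_q1_P (l : ℝ) (w : T1s (frCalc g)) (i : Fin n) :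
    (frCalc g).cas (((q1 D).P l w : Fin n → SmFr g) i) = -l • ((q1 D).P l w : Fin n → SmFr g) i :=
  cas_sp1_P (tdata D) l w i

theorem cas_q2_P (l : ℝ) (k : T2s (frCalc g)) (i j : Fin n) :
    (frCalc g).cas (((q2 D).P l k : Fin n → Fin n → SmFr g) i j) =
      -l • ((q2 D).P l k : Fin n → Fin n → SmFr g) i j :=
  cas_sp2_P (tdata D) l k i j

/-- vector fields in group form -/
def qG1 : SSp (G1s (rotAct g)) := H379.sp1 D.hP (isS1_q1 D)

/-- symmetric tensors of rank two in group form -/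
def qG2 : SSp (G2s (rotAct g)) := H379.sp2 D.hP (isS2_q2 D)

theorem qG1_L (w : G1s (rotAct g)) (i : Fin n) :
    (((qG1 D).L w : T1s (frCalc g)) : Fin n → SmFr g) i =
      -(frCalc g).cas (((w : T1s (frCalc g)) : Fin n → SmFr g) i) := (isS1_q1 D).L w i

theorem qG2_L (k : G2s (rotAct g)) (i j : Fin n) :
    (((qG2 D).L k : T2s (frCalc g)) : Fin n → Fin n → SmFr g) i j =
      -(frCalc g).cas (((k : T2s (frCalc g)) : Fin n → Fin n → SmFr g) i j) :=
  (isS2_q2 D).L k i j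

theorem qG2_ip (k h : G2s (rotAct g)) : (qG2 D).ip k h =
    ∑ i, ∑ j, D.I (((k : T2s (frCalc g)) : Fin n → Fin n → SmFr g) i j *
      ((h : T2s (frCalc g)) : Fin n → Fin n → SmFr g) i j) := (isS2_q2 D).ip k h

theorem cas_qG2_P (l : ℝ) (k : G2s (rotAct g)) (i j : Fin n) :
    (frCalc g).cas ((((qG2 D).P l k : T2s (frCalc g)) : Fin n → Fin n → SmFr g) i j) =
      -l • (((qG2 D).P l k : T2s (frCalc g)) : Fin n → Fin n → SmFr g) i j :=
  cas_q2_P D l k i j

theorem qG2_nm (s : ℕ) (k : G2s (rotAct g)) : (qG2 D).nm s k = (q2 D).nm s k := rfl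

end Vale.Agent.P207.H395
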